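import Vale.Agent.P355.Mub

/-!
# P355: no three mutually unbiased bases of `ℂ^6` over many cyclotomic fields
-/

namespace Vale.Agent.Results.P355.CyclotomicTriples

open _root_.P355

/-- (1) dimension six, triple products; (2) dimension six, Hadamard matrices;
(3) every dimension `d` and prime `p` with `v_p(d)` odd. -/
theorem result :
    (∀ N j : ℕ, 1 ≤ j → (N ∣ 2 ^ j + 1 ∨ N ∣ 3 ^ j + 1) →
      ∀ B₁ B₂ B₃ : OrthonormalBasis (Fin 6) ℂ (EuclideanSpace ℂ (Fin 6)),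
      MU B₁ B₂ → MU B₂ B₃ → MU B₃ B₁ →
      ∀ a b c : Fin 6, triple (B₁ a) (B₂ b) (B₃ c) ∉ Algebra.adjoin ℚ (mu N)) ∧
    (∀ N j : ℕ, 1 ≤ j → (N ∣ 2 ^ j + 1 ∨ N ∣ 3 ^ j + 1) → ∀ H G : Matrix (Fin 6) (Fin 6) ℂ,
      (∀ i k, H i k ∈ Algebra.adjoin ℚ (mu N)) → (∀ i k, G i k ∈ Algebra.adjoin ℚ (mu N)) →
      ∀ a b : Fin 6, ‖(H.conjTranspose * G) a b‖ ^ 2 ≠ 6) ∧
    (∀ d N p j : ℕ, d ≠ 0 → p.Prime → Odd (padicValNat p d) → 1 ≤ j → N ∣ p ^ j + 1 →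
      ∀ B₁ B₂ B₃ : OrthonormalBasis (Fin d) ℂ (EuclideanSpace ℂ (Fin d)),
      MU B₁ B₂ → MU B₂ B₃ → MU B₃ B₁ →
      ∀ a b c : Fin d, triple (B₁ a) (B₂ b) (B₃ c) ∉ Algebra.adjoin ℚ (mu N)) := by
  refine ⟨?_, ?_, ?_⟩
  · intro N j hj hN B₁ B₂ B₃ h12 h23 h31 a b c
    rcases hN with hN | hN
    · exact mub_general (by norm_num) Nat.prime_two odd2 hj hN B₁ B₂ B₃ h12 h23 h31 a b c
    · exact mub_general (by norm_num) Nat.prime_three odd3 hj hN B₁ B₂ B₃ h12 h23 h31 a b c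
  · intro N j hj hN H G hH hG a b
    rcases hN with hN | hN
    · have h := hadamard_general (by norm_num) Nat.prime_two odd2 hj hN H G hH hG a b
      simpa using h
    · have h := hadamard_general (by norm_num) Nat.prime_three odd3 hj hN H G hH hG a b
      simpa using h
  · intro d N p j hd hp hv hj hN B₁ B₂ B₃ h12 h23 h31 a b c
    exact mub_general hd hp hv hj hN B₁ B₂ B₃ h12 h23 h31 a b c

end Vale.Agent.Results.P355.CyclotomicTriples
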