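import Vale.Agent.P355.Final

/-!
# P355: fields of definition of mutually unbiased bases in dimension six
-/

open Vale.Agent.P355 ComplexConjugate

/-- Mutually unbiased bases of `ℂ ^ 6` all of whose triple products lie in the subfield `K`: three
of them force `6 = z * conj z` in `K`, seven of them force `i ∈ K` and `3 = x ^ 2 + y ^ 2` with real
`x, y ∈ K`. -/
theorem Vale.Agent.Results.P355.FieldOfDefinition.result (K : Subfield ℂ) {n : ℕ}
    (B : Fin n → OrthonormalBasis (Fin 6) ℂ (EuclideanSpace ℂ (Fin 6)))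
    (hB : MutuallyUnbiased B) (hK : TripleProductsIn K B) :
    (3 ≤ n → ∃ z ∈ K, conj z ∈ K ∧ z * conj z = 6) ∧
    (7 ≤ n → Complex.I ∈ K ∧
      ∃ x y : ℝ, (x : ℂ) ∈ K ∧ (y : ℂ) ∈ K ∧ x ^ 2 + y ^ 2 = 3) :=
  main K B hB hK
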